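import Vale.Agent.P216.AS.Cx

/-! The five lemma for subquotients (copied from `AS/Les.lean`, which cannot be imported together
with `AS/Alg707.lean`). -/

namespace Vale.Agent.P216.H828

open AS

variable {k : Type} [Field k] {C C' : Amb k}

/-! ### Five lemma -/

section Five

variable {R S T : Sub C} {R' S' T' : Sub C'} {φ : ∀ n, C.K n →ₗ[k] C'.K n}

theorem five_mid (hTS : T ≤ S) (hSR : S ≤ R) (hTS' : T' ≤ S') (hSR' : S' ≤ R')
    (h : IsMor R T R' T' φ) (h₁ : IsMor R S R' S' φ) (h₂ : IsMor S T S' T' φ)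
    (b₁ : ∀ n, Function.Bijective (Hmap h₁ n)) (b₂ : ∀ n, Function.Bijective (Hmap h₂ n)) (n : ℕ) :
    Function.Bijective (Hmap h n) := by
  have hs : Function.Surjective (Hmap h n) :=
    LinearMap.surjective_of_surjective_of_surjective_of_injective
      (Hinc hSR le_rfl n) (Hinc le_rfl hTS n) (Hdel R S T n)
      (Hinc hSR' le_rfl n) (Hinc le_rfl hTS' n) (Hdel R' S' T' n)
      (Hmap h₂ n) (Hmap h n) (Hmap h₁ n) (Hmap h₂ (n + 1))
      (H.hom_ext fun _ _ => rfl) (H.hom_ext fun _ _ => rfl)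
      (LinearMap.ext fun x => Hdel_natural h h₁ h₂ x)
      (exact_del hTS hSR) (exact_mid hTS' hSR') (exact_del hTS' hSR') (b₂ n).2 (b₁ n).2
      (b₂ (n + 1)).1
  refine ⟨?_, hs⟩
  cases n with
  | zero =>
    rw [injective_iff_map_eq_zero]
    intro x hx
    have e : Hmap h₁ 0 (Hinc le_rfl hTS 0 x) = 0 := by
      have e0 : (Hinc le_rfl hTS' 0 : H R' T' 0 →ₗ[k] H R' S' 0) (Hmap h 0 x) = 0 := by
        rw [hx, map_zero]
      obtain ⟨x, hx', rfl⟩ := H.exists_mk x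
      exact e0
    have e' := (injective_iff_map_eq_zero _).1 (b₁ 0).1 _ e
    obtain ⟨y, rfl⟩ := (exact_mid hTS hSR x).1 e'
    have e2 : Hinc hSR' le_rfl 0 (Hmap h₂ 0 y) = 0 := by
      obtain ⟨y, hy, rfl⟩ := H.exists_mk y
      exact hx
    have e3 := (injective_iff_map_eq_zero _).1 (inc_zero_injective hSR') _ e2
    rw [(injective_iff_map_eq_zero _).1 (b₂ 0).1 _ e3, map_zero]
  | succ n =>
    exact LinearMap.injective_of_surjective_of_injective_of_injective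
      (Hdel R S T n) (Hinc hSR le_rfl (n + 1)) (Hinc le_rfl hTS (n + 1))
      (Hdel R' S' T' n) (Hinc hSR' le_rfl (n + 1)) (Hinc le_rfl hTS' (n + 1))
      (Hmap h₁ n) (Hmap h₂ (n + 1)) (Hmap h (n + 1)) (Hmap h₁ (n + 1))
      (LinearMap.ext fun x => Hdel_natural h h₁ h₂ x)
      (H.hom_ext fun _ _ => rfl) (H.hom_ext fun _ _ => rfl)
      (exact_inc hTS hSR) (exact_mid hTS hSR) (exact_inc hTS' hSR') (b₁ n).2 (b₂ (n + 1)).1
      (b₁ (n + 1)).1

theorem five_right (hTS : T ≤ S) (hSR : S ≤ R) (hTS' : T' ≤ S') (hSR' : S' ≤ R')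
    (h : IsMor R T R' T' φ) (h₁ : IsMor R S R' S' φ) (h₂ : IsMor S T S' T' φ)
    (b : ∀ n, Function.Bijective (Hmap h n)) (b₂ : ∀ n, Function.Bijective (Hmap h₂ n)) (n : ℕ) :
    Function.Bijective (Hmap h₁ n) :=
  LinearMap.bijective_of_surjective_of_bijective_of_bijective_of_injective
      (Hinc hSR le_rfl n) (Hinc le_rfl hTS n) (Hdel R S T n) (Hinc hSR le_rfl (n + 1))
      (Hinc hSR' le_rfl n) (Hinc le_rfl hTS' n) (Hdel R' S' T' n) (Hinc hSR' le_rfl (n + 1))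
      (Hmap h₂ n) (Hmap h n) (Hmap h₁ n) (Hmap h₂ (n + 1)) (Hmap h (n + 1))
      (H.hom_ext fun _ _ => rfl) (H.hom_ext fun _ _ => rfl)
      (LinearMap.ext fun x => Hdel_natural h h₁ h₂ x) (H.hom_ext fun _ _ => rfl)
      (exact_mid hTS hSR) (exact_del hTS hSR) (exact_inc hTS hSR)
      (exact_mid hTS' hSR') (exact_del hTS' hSR') (exact_inc hTS' hSR')
      (b₂ n).2 (b n) (b₂ (n + 1)) (b (n + 1)).1

theorem five_left (hTS : T ≤ S) (hSR : S ≤ R) (hTS' : T' ≤ S') (hSR' : S' ≤ R')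
    (h : IsMor R T R' T' φ) (h₁ : IsMor R S R' S' φ) (h₂ : IsMor S T S' T' φ)
    (b : ∀ n, Function.Bijective (Hmap h n)) (b₁ : ∀ n, Function.Bijective (Hmap h₁ n)) (n : ℕ) :
    Function.Bijective (Hmap h₂ n) := by
  cases n with
  | zero =>
    exact LinearMap.bijective_of_bijective_of_injective_of_left_exact
      (Hinc hSR le_rfl 0) (Hinc le_rfl hTS 0) (Hinc hSR' le_rfl 0) (Hinc le_rfl hTS' 0)
      (Hmap h₂ 0) (Hmap h 0) (Hmap h₁ 0) (H.hom_ext fun _ _ => rfl) (H.hom_ext fun _ _ => rfl)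
      (exact_mid hTS hSR) (exact_mid hTS' hSR') (b 0) (b₁ 0).1 (inc_zero_injective hSR)
      (inc_zero_injective hSR')
  | succ n =>
    exact LinearMap.bijective_of_surjective_of_bijective_of_bijective_of_injective
      (Hinc le_rfl hTS n) (Hdel R S T n) (Hinc hSR le_rfl (n + 1)) (Hinc le_rfl hTS (n + 1))
      (Hinc le_rfl hTS' n) (Hdel R' S' T' n) (Hinc hSR' le_rfl (n + 1))
      (Hinc le_rfl hTS' (n + 1))
      (Hmap h n) (Hmap h₁ n) (Hmap h₂ (n + 1)) (Hmap h (n + 1)) (Hmap h₁ (n + 1))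
      (H.hom_ext fun _ _ => rfl)
      (LinearMap.ext fun x => Hdel_natural h h₁ h₂ x)
      (H.hom_ext fun _ _ => rfl) (H.hom_ext fun _ _ => rfl)
      (exact_del hTS hSR) (exact_inc hTS hSR) (exact_mid hTS hSR)
      (exact_del hTS' hSR') (exact_inc hTS' hSR') (exact_mid hTS' hSR')
      (b n).2 (b₁ n) (b (n + 1)) (b₁ (n + 1)).1

end Five


end Vale.Agent.P216.H828
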