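import Vale.Agent.P216.AS.Htpy

/-!
# The algebra of the rotation homotopy on tuples

`P = prism id h` satisfies `P P = 0`, `P` commutes with the pull back by `h`;
`rt h m c = - ∑ j < m, P (h^j)^* c` satisfies `d rt + rt d = 1 - (h^m)^*`, `rt rt = 0`.
-/

open Set Matrix Finset

namespace Vale.Agent.P216.H828

open Vale.Agent.P265 (AS.d AS.dL AS.pb AS.prism)
open Vale.Agent.P265

variable {E : Type} {k : Type} [Field k]

/-- the prism commutes with a commuting map -/
theorem prism_pb (h f : E → E) (hf : ∀ x, h (f x) = f (h x)) {n : ℕ}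
    (c : (Fin (n + 1) → E) → k) :
    AS.prism id h (AS.pb f c) = AS.pb f (AS.prism id h c) := by
  funext x
  exact (AS.prism_comp id h f f c x (fun _ => rfl) (fun i => hf (x i))).symm

/-- `P P = 0`. -/
theorem prism_prism (h : E → E) {n : ℕ} (c : (Fin (n + 2) → E) → k) :
    AS.prism id h (AS.prism id h c) = 0 := by
  induction n with
  | zero => rfl
  | succ n ih =>
    funext x
    obtain ⟨a, x, rfl⟩ : ∃ a y, x = vecCons a y := ⟨vecHead x, vecTail x, by simp⟩
    have h1 : (fun y => AS.prism id h c (vecCons (id a) y)) =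
        AS.pb h (fun y => c (vecCons (id a) (vecCons (h a) y))) -
          AS.prism id h (fun y => c (vecCons (id a) y)) := by
      funext y
      rw [id, AS.prism_cons]; rfl
    rw [AS.prism_cons, h1, AS.prism_sub, ih, sub_zero]
    rw [id, AS.prism_cons, AS.prism_cons]
    have h2 := congrFun (prism_pb h h (fun _ => rfl) (fun y => c (vecCons a (vecCons (h a) y)))) x
    simp only [id] at h2 ⊢
    rw [h2]
    simp only [AS.pb_apply, AS.comp_vecCons, Pi.zero_apply]
    ring

/-- The homotopy along `m` steps of `h`, with sign `-1`. -/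
def rt (k : Type) [Field k] (h : E → E) (m n : ℕ) :
    ((Fin (n + 1) → E) → k) →ₗ[k] ((Fin n → E) → k) :=
  -∑ j ∈ range m, AS.prismL k id h n ∘ₗ AS.pb (h^[j])

theorem rt_apply (h : E → E) (m n : ℕ) (c : (Fin (n + 1) → E) → k) :
    rt k h m n c = -∑ j ∈ range m, AS.prism id h (AS.pb (h^[j]) c) := by
  unfold rt
  rw [LinearMap.neg_apply, LinearMap.sum_apply]
  rfl

theorem pb_pb (f g : E → E) {n : ℕ} (c : (Fin n → E) → k) :
    AS.pb f (AS.pb g c) = AS.pb (g ∘ f) c := rfl

theorem iter_comm (h : E → E) (i j : ℕ) (x : E) : h^[i] (h^[j] x) = h^[j] (h^[i] x) := by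
  rw [← Function.iterate_add_apply, ← Function.iterate_add_apply, add_comm]

theorem comm_iter (h f : E → E) (hf : ∀ x, h (f x) = f (h x)) (j : ℕ) :
    f ∘ h^[j] = h^[j] ∘ f := by
  funext x
  induction j with
  | zero => rfl
  | succ j ih =>
    have h1 : f (h^[j + 1] x) = h^[j + 1] (f x) := by
      rw [Function.iterate_succ_apply', ← hf, Function.iterate_succ_apply']
      exact congrArg h ih
    exact h1

/-- commutation with a commuting map -/
theorem rt_pb (h f : E → E) (hf : ∀ x, h (f x) = f (h x)) (m n : ℕ)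
    (c : (Fin (n + 1) → E) → k) : rt k h m n (AS.pb f c) = AS.pb f (rt k h m n c) := by
  rw [rt_apply, rt_apply, map_neg, map_sum]
  congr 1
  refine sum_congr rfl fun j _ => ?_
  rw [← prism_pb h f hf, pb_pb, pb_pb, comm_iter h f hf]

/-- The homotopy identity. -/
theorem d_rt (h : E → E) (m n : ℕ) (c : (Fin (n + 1) → E) → k) :
    AS.d (rt k h m n c) + rt k h m (n + 1) (AS.d c) = c - AS.pb (h^[m]) c := by
  rw [rt_apply, rt_apply, AS.d_neg]
  have h1 : ∀ j, AS.d (AS.prism id h (AS.pb (h^[j]) c)) +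
      AS.prism id h (AS.pb (h^[j]) (AS.d c)) = AS.pb (h^[j + 1]) c - AS.pb (h^[j]) c := by
    intro j
    funext x
    have := AS.d_prism id h (AS.pb (h^[j]) c) x
    rw [AS.d_pb] at this
    rw [Pi.add_apply, this]
    simp only [AS.pb_apply, Pi.sub_apply, Function.id_comp]
    congr 1
  induction m with
  | zero =>
    simp only [range_zero, sum_empty, neg_zero, add_zero]
    rw [AS.d_zero]
    funext x
    simp [AS.pb_apply]
  | succ m ih =>
    rw [sum_range_succ, sum_range_succ, AS.d_add]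
    have h2 := h1 m
    have e : AS.d (∑ j ∈ range m, AS.prism id h (AS.pb (h^[j]) c)) +
        ∑ j ∈ range m, AS.prism id h (AS.pb (h^[j]) (AS.d c)) =
        -(c - AS.pb (h^[m]) c) := by
      rw [← ih]; abel
    have e2 : -(AS.d (∑ j ∈ range m, AS.prism id h (AS.pb (h^[j]) c)) +
          AS.d (AS.prism id h (AS.pb (h^[m]) c))) +
        -(∑ j ∈ range m, AS.prism id h (AS.pb (h^[j]) (AS.d c)) +
          AS.prism id h (AS.pb (h^[m]) (AS.d c))) =
        -(AS.d (∑ j ∈ range m, AS.prism id h (AS.pb (h^[j]) c)) +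
          ∑ j ∈ range m, AS.prism id h (AS.pb (h^[j]) (AS.d c))) -
        (AS.d (AS.prism id h (AS.pb (h^[m]) c)) +
          AS.prism id h (AS.pb (h^[m]) (AS.d c))) := by abel
    rw [e2, e, h2]
    abel

/-- `rt rt = 0`. -/
theorem rt_rt (h : E → E) (m m' n : ℕ) (c : (Fin (n + 2) → E) → k) :
    rt k h m n (rt k h m' (n + 1) c) = 0 := by
  rw [rt_apply]
  rw [sum_eq_zero, neg_zero]
  intro j _
  rw [← rt_pb h (h^[j]) (fun x => (iter_comm h 1 j x)), rt_apply]
  change AS.prismL k id h n (-∑ i ∈ range m', AS.prism id h (AS.pb (h^[i]) (AS.pb (h^[j]) c))) = 0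
  rw [map_neg, map_sum, sum_eq_zero, neg_zero]
  intro i _
  exact prism_prism h _

/-- The values of `rt c` at `x` only involve the values of `c` at the tuples with entries among
the `h^j (x i)` and `h^(j+1) (x i)`. -/
theorem rt_eq_zero (h : E → E) (m : ℕ) {n : ℕ} {c : (Fin (n + 1) → E) → k} {x : Fin n → E}
    (hc : ∀ j < m, ∀ y, (∀ i, ∃ l, y i = h^[j] (x l) ∨ y i = h^[j + 1] (x l)) → c y = 0) :
    rt k h m n c x = 0 := by
  rw [rt_apply, Pi.neg_apply, Finset.sum_apply, sum_eq_zero, neg_zero]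
  intro j hj
  refine AS.prism_eq_zero _ _ fun y hy => ?_
  rw [AS.pb_apply]
  refine hc j (mem_range.1 hj) _ fun i => ?_
  obtain ⟨l, hl⟩ := hy i
  refine ⟨l, ?_⟩
  rcases hl with hl | hl
  · left; simp [hl]
  · right; simp [hl, Function.iterate_succ_apply]

theorem rt_congr (h : E → E) (m : ℕ) {n : ℕ} {c c' : (Fin (n + 1) → E) → k} {x : Fin n → E}
    (hc : ∀ j < m, ∀ y, (∀ i, ∃ l, y i = h^[j] (x l) ∨ y i = h^[j + 1] (x l)) → c y = c' y) :
    rt k h m n c x = rt k h m n c' x := by
  have := rt_eq_zero (k := k) h m (c := c - c') (x := x) fun j hj y hy => by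
    rw [Pi.sub_apply, hc j hj y hy, sub_self]
  rw [map_sub, Pi.sub_apply, sub_eq_zero] at this
  exact this

/-- splitting the homotopy -/
theorem rt_add (h : E → E) (m m' n : ℕ) (c : (Fin (n + 1) → E) → k) :
    rt k h (m + m') n c = rt k h m n c + rt k h m' n (AS.pb (h^[m]) c) := by
  rw [rt_apply, rt_apply, rt_apply, sum_range_add, neg_add]
  congr 2
  refine sum_congr rfl fun j _ => ?_
  congr 1
  rw [pb_pb, ← Function.iterate_add]

/-- `p` turns. -/
theorem rt_mul (h : E → E) (m p n : ℕ) (c : (Fin (n + 1) → E) → k) :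
    rt k h (p * m) n c = ∑ i ∈ range p, rt k h m n (AS.pb ((h^[m])^[i]) c) := by
  induction p with
  | zero => simp [rt_apply]
  | succ p ih =>
    rw [Nat.succ_mul, rt_add, ih, sum_range_succ]
    congr 3
    rw [← Function.iterate_mul, mul_comm]

end Vale.Agent.P216.H828
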