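import Vale.Agent.P216.H828.Five
import Vale.Agent.P216.H828.Rot

set_option linter.unusedSectionVars false

/-!
# Alexander-Spanier cochains depending on an index `N`, modulo the hyperfilter

`IK E k` : sequences of cochains.  `ZrI a χ X A` : equivariant sequences `f` such that for some
`ε > 0`, for almost all `N`, `f N` vanishes on the `ε`-small tuples of `A`.
Comparison with the usual cohomology for sets with finite equivariant nets, `k` finite.
-/

open Set Matrix Filter

namespace Vale.Agent.P216.H828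

open AS
open Vale.Agent.P265 (AS.d AS.dL AS.pb AS.prism AS.rs)

variable {k : Type} [Field k]

/-- sequences of elements of a complex -/
abbrev Pw (C : Amb k) : Amb k where
  K n := ℕ → C.K n
  d n := LinearMap.pi fun N => C.d n ∘ₗ LinearMap.proj N
  d_d n x := by funext N; exact C.d_d n (x N)

theorem Pw_d (C : Amb k) (n N : ℕ) (x : ℕ → C.K n) : (Pw C).d n x N = C.d n (x N) := rfl

/-- The ultrafilter. -/
noncomputable abbrev UU : Ultrafilter ℕ := Filter.hyperfilter ℕ

variable {E : Type} {I : Type}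

/-- sequences of cochains -/
abbrev IK (E k : Type) [Field k] : Amb k := Pw (ASK E k)

/-- constant sequences -/
def cst (C : Amb k) (n : ℕ) : C.K n →ₗ[k] (Pw C).K n :=
  LinearMap.pi fun _ : ℕ => (LinearMap.id : C.K n →ₗ[k] C.K n)

theorem cst_apply (C : Amb k) (n N : ℕ) (x : C.K n) : cst C n x N = x := rfl

/-- all equivariant sequences -/
def CcI (a : I → E → E) (χ : I → k) (X : Set E) : Sub (IK E k) where
  S _ :=
    { carrier := {f | ∀ N, Eqv a χ X (f N)}
      zero_mem' := fun _ => eqv_zero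
      add_mem' := fun h h' N => (h N).add (h' N)
      smul_mem' := fun c _ h N => (h N).smul c }
  d_mem h := fun N => (h N).d

theorem mem_CcI {a : I → E → E} {χ : I → k} {X : Set E} {n : ℕ} {f : (IK E k).K n} :
    f ∈ CcI a χ X n ↔ ∀ N, Eqv a χ X (f N) := Iff.rfl

section Metric

variable [PseudoMetricSpace E]

/-- `f` vanishes on small tuples of `A`, for almost all indices. -/
def VanI (A : Set E) {n : ℕ} (f : ℕ → (Fin n → E) → k) : Prop :=
  ∃ ε > 0, ∀ᶠ N in (UU : Filter ℕ), ∀ x, Sm A ε x → f N x = 0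

theorem VanI.mono {A B : Set E} {n : ℕ} {f : ℕ → (Fin n → E) → k} (h : VanI B f) (hAB : A ⊆ B) :
    VanI A f := by
  obtain ⟨ε, hε, h⟩ := h
  exact ⟨ε, hε, h.mono fun N hN x hx => hN x (hx.mono hAB le_rfl)⟩

theorem vanI_zero {A : Set E} {n : ℕ} : VanI A (0 : ℕ → (Fin n → E) → k) :=
  ⟨1, one_pos, Eventually.of_forall fun _ _ _ => rfl⟩

theorem VanI.add {A : Set E} {n : ℕ} {f f' : ℕ → (Fin n → E) → k} (h : VanI A f)
    (h' : VanI A f') : VanI A (f + f') := by
  obtain ⟨ε, hε, h⟩ := h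
  obtain ⟨ε', hε', h'⟩ := h'
  refine ⟨min ε ε', lt_min hε hε', (h.and h').mono fun N hN x hx => ?_⟩
  rw [Pi.add_apply, Pi.add_apply, hN.1 x (hx.mono le_rfl (min_le_left _ _)),
    hN.2 x (hx.mono le_rfl (min_le_right _ _)), add_zero]

theorem VanI.smul {A : Set E} {n : ℕ} {f : ℕ → (Fin n → E) → k} (c : k) (h : VanI A f) :
    VanI A (c • f) := by
  obtain ⟨ε, hε, h⟩ := h
  exact ⟨ε, hε, h.mono fun N hN x hx => by rw [Pi.smul_apply, Pi.smul_apply, hN x hx, smul_zero]⟩

theorem VanI.neg {A : Set E} {n : ℕ} {f : ℕ → (Fin n → E) → k} (h : VanI A f) :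
    VanI A (-f) := by
  obtain ⟨ε, hε, h⟩ := h
  exact ⟨ε, hε, h.mono fun N hN x hx => by rw [Pi.neg_apply, Pi.neg_apply, hN x hx, neg_zero]⟩

theorem VanI.sub {A : Set E} {n : ℕ} {f f' : ℕ → (Fin n → E) → k} (h : VanI A f)
    (h' : VanI A f') : VanI A (f - f') := by
  rw [sub_eq_add_neg]; exact h.add h'.neg

theorem VanI.d {A : Set E} {n : ℕ} {f : ℕ → (Fin n → E) → k} (h : VanI A f) :
    VanI A (fun N => AS.d (f N)) := by
  obtain ⟨ε, hε, h⟩ := h
  exact ⟨ε, hε, h.mono fun N hN x hx => P265.AS.d_eq_zero fun y hy => hN y (hx.sub hy)⟩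

/-- equivariant sequences vanishing on small tuples of `A` -/
def ZrI (a : I → E → E) (χ : I → k) (X A : Set E) : Sub (IK E k) where
  S _ :=
    { carrier := {f | (∀ N, Eqv a χ X (f N)) ∧ VanI A f}
      zero_mem' := ⟨fun _ => eqv_zero, vanI_zero⟩
      add_mem' := fun h h' => ⟨fun N => (h.1 N).add (h'.1 N), h.2.add h'.2⟩
      smul_mem' := fun c _ h => ⟨fun N => (h.1 N).smul c, h.2.smul c⟩ }
  d_mem h := ⟨fun N => (h.1 N).d, h.2.d⟩

theorem mem_ZrI {a : I → E → E} {χ : I → k} {X A : Set E} {n : ℕ} {f : (IK E k).K n} :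
    f ∈ ZrI a χ X A n ↔ (∀ N, Eqv a χ X (f N)) ∧ VanI A f := Iff.rfl

theorem ZrI_le_CcI {a : I → E → E} {χ : I → k} {X A : Set E} : ZrI a χ X A ≤ CcI a χ X :=
  fun _ _ h => h.1

theorem CcI_anti {a : I → E → E} {χ : I → k} {X Y : Set E} (h : X ⊆ Y) :
    CcI a χ Y ≤ CcI a χ X := fun _ _ hf N => (hf N).mono h

theorem ZrI_anti {a : I → E → E} {χ : I → k} {X Y A B : Set E} (h : X ⊆ Y) (h' : A ⊆ B) :
    ZrI a χ Y B ≤ ZrI a χ X A := fun _ _ hf => ⟨fun N => (hf.1 N).mono h, hf.2.mono h'⟩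

theorem cst_mem_CcI {a : I → E → E} {χ : I → k} {X : Set E} {n : ℕ} {f : (ASK E k).K n}
    (h : f ∈ Cc a χ X n) : cst (ASK E k) n f ∈ CcI a χ X n := fun _ => h

theorem cst_mem_ZrI {a : I → E → E} {χ : I → k} {X A : Set E} {n : ℕ} {f : (ASK E k).K n}
    (h : f ∈ Zr a χ X A n) : cst (ASK E k) n f ∈ ZrI a χ X A n := by
  obtain ⟨h1, ε, hε, h2⟩ := h
  exact ⟨fun _ => h1, ε, hε, Eventually.of_forall fun _ => h2⟩

theorem isMor_cst_Cc (a : I → E → E) (χ : I → k) (X A : Set E) :
    IsMor (Cc a χ X) (Zr a χ X A) (CcI a χ X) (ZrI a χ X A) (cst (ASK E k)) :=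
  IsMor.of_comm (fun h => cst_mem_CcI h) (fun h => cst_mem_ZrI h) fun _ _ => rfl

theorem isMor_cst_Zr (a : I → E → E) (χ : I → k) (X A B : Set E) :
    IsMor (Zr a χ X B) (Zr a χ X A) (ZrI a χ X B) (ZrI a χ X A) (cst (ASK E k)) :=
  IsMor.of_comm (fun h => cst_mem_ZrI h) (fun h => cst_mem_ZrI h) fun _ _ => rfl

/-- finite equivariant nets -/
def Net (a : I → E → E) (A : Set E) : Prop := ∀ ε > 0, ∃ π : E → E, MapsTo π A A ∧
  (∀ i, ∀ x ∈ A, π (a i x) = a i (π x)) ∧ (∀ x ∈ A, dist (π x) x < ε) ∧ (π '' A).Finite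

/-- Ultrafilter limit of functions into a finite set. -/
theorem exists_eventually_eq {T : Type*} [Finite T] (F : ℕ → T) :
    ∃ t, ∀ᶠ N in (UU : Filter ℕ), F N = t := by
  obtain ⟨t, ht⟩ := Ultrafilter.eq_pure_of_finite (Ultrafilter.map F UU)
  refine ⟨t, ?_⟩
  have h : {x | x = t} ∈ Ultrafilter.map F UU := by
    rw [ht]; exact rfl
  exact h

theorem eqv_pb_of {a : I → E → E} {χ : I → k} {A : Set E} {π : E → E} (h1 : MapsTo π A A)
    (h2 : ∀ i, ∀ x ∈ A, π (a i x) = a i (π x)) {n : ℕ} {f : (Fin n → E) → k}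
    (hf : Eqv a χ A f) : Eqv a χ A (AS.pb π f) := by
  intro i x hx
  rw [P265.AS.pb_apply, P265.AS.pb_apply, ← hf i (π ∘ x) fun j => h1 (hx j)]
  congr 1
  funext j
  exact h2 i _ (hx j)

theorem eqv_prism_of {a : I → E → E} {χ : I → k} {A : Set E} {π : E → E} (h1 : MapsTo π A A)
    (h2 : ∀ i, ∀ x ∈ A, π (a i x) = a i (π x)) {n : ℕ} {f : (Fin (n + 1) → E) → k}
    (hf : Eqv a χ A f) : Eqv a χ A (AS.prism id π f) := by
  intro i x hx
  rw [P265.AS.prism_comp id π (a i) (a i) f x (fun j => rfl) fun j => h2 i _ (hx j)]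
  have : AS.prism id π (AS.pb (a i) f - χ i • f) x = 0 := by
    apply P265.AS.prism_eq_zero
    intro y hy
    rw [Pi.sub_apply, P265.AS.pb_apply, hf i y, Pi.smul_apply, smul_eq_mul, sub_self]
    intro j
    obtain ⟨l, hl | hl⟩ := hy j
    · exact hl ▸ (hx l)
    · exact hl ▸ h1 (hx l)
  rw [P265.AS.prism_sub, P265.AS.prism_smul, Pi.sub_apply, sub_eq_zero] at this
  exact this

/-- **Comparison**, absolute form, for a subset `A` of the world `X`. -/
theorem cst_bijective [Finite k] {a : I → E → E} {χ : I → k} {X A : Set E} (hA : A ⊆ X)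
    (hi : Inv a A) (hN : Net a A) (n : ℕ) :
    Function.Bijective (Hmap (isMor_cst_Cc (k := k) a χ X A) n) := by
  constructor
  · rw [injective_iff_map_eq_zero]
    intro x hx
    obtain ⟨f, hf, rfl⟩ := H.exists_mk x
    rw [Hmap_mk, H.mk_eq_zero] at hx
    rw [H.mk_eq_zero]
    cases n with
    | zero =>
      rw [mem_Bc_zero] at hx ⊢
      obtain ⟨-, ε, hε, h⟩ := hx
      obtain ⟨N, hN⟩ := h.exists
      exact ⟨hf.1, ε, hε, hN⟩
    | succ n =>
      rw [mem_Bc_succ] at hx ⊢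
      obtain ⟨y, hy, -, ε, hε, h⟩ := hx
      obtain ⟨N, hN⟩ := h.exists
      exact ⟨y N, hy N, hf.1.sub (hy N).d, ε, hε, hN⟩
  · intro z
    obtain ⟨f, hf, rfl⟩ := H.exists_mk z
    have hf' := hf
    obtain ⟨hfC, -, ε, hε, hd⟩ := hf'
    obtain ⟨π, hπA, hπa, hπ, hfin⟩ := hN (ε / 3) (by positivity)
    have : Finite ↥(π '' A) := hfin
    obtain ⟨φ, hφ⟩ := exists_eventually_eq
      (fun N => (fun y : Fin (n + 1) → ↥(π '' A) => f N fun i => (y i : E)))
    obtain ⟨N₀, hN₀, hdN₀⟩ := (hφ.and hd).exists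
    have hsub : ∀ N, Eqv a χ A (f N) := fun N => (hfC N).mono hA
    -- the constant representative
    set g : (Fin (n + 1) → E) → k := AS.rs k A (n + 1) (AS.pb π (f N₀)) with hg
    have hgE : Eqv a χ X g := rs_eqv hi (eqv_pb_of hπA hπa (hsub N₀))
    have hgA : ∀ x : Fin (n + 1) → E, (∀ i, x i ∈ A) → g x = f N₀ (π ∘ x) := fun x hx =>
      P265.AS.rs_of_mem hx
    have hsm : ∀ (m : ℕ) (x : Fin m → E), Sm A (ε / 3) x → Sm A ε (π ∘ x) := by
      intro m x hx
      refine ⟨fun i => hπA (hx.1 i), fun i j => ?_⟩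
      have h1 := hπ _ (hx.1 i)
      have h2 := hπ _ (hx.1 j)
      have h3 := hx.2 i j
      have h4 : dist (π (x i)) (π (x j)) ≤ dist (π (x i)) (x i) + dist (x i) (x j) +
          dist (x j) (π (x j)) := dist_triangle4 _ _ _ _
      rw [dist_comm (x j)] at h4
      change dist (π (x i)) (π (x j)) < ε
      linarith
    have hdg : Van A (AS.d g) := by
      refine ⟨ε / 3, by positivity, fun x hx => ?_⟩
      have h1 : AS.d g x = AS.d (AS.pb π (f N₀)) x := P265.AS.d_congr fun y hy =>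
        hgA y (P265.AS.sub_mem hx.1 hy)
      rw [h1, P265.AS.d_pb]
      exact hdN₀ _ (hsm _ x hx)
    have hgZ : g ∈ Zc (Cc a χ X) (Zr a χ X A) n := ⟨hgE, hgE.d, hdg⟩
    refine ⟨H.mk g hgZ, ?_⟩
    rw [Hmap_mk, eq_comm, H.mk_eq_mk]
    -- values on tuples of `A`
    have key : ∀ᶠ N in (UU : Filter ℕ), ∀ x : Fin (n + 1) → E, Sm A (ε / 3) x →
        f N x - g x = -(AS.d (AS.prism id π (f N)) x) := by
      filter_upwards [hφ, hd] with N h1 h2 x hx
      have h3 : g x = f N (π ∘ x) := by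
        rw [hgA x hx.1]
        have e1 := congrFun h1 fun i => ⟨π (x i), mem_image_of_mem π (hx.1 i)⟩
        have e2 := congrFun hN₀ fun i => ⟨π (x i), mem_image_of_mem π (hx.1 i)⟩
        exact e2.trans e1.symm
      have h4 := P265.AS.d_prism id π (f N) x
      have h5 : AS.prism id π (AS.d (f N)) x = 0 := by
        refine P265.AS.prism_eq_zero _ _ fun y hy => h2 y ⟨fun i => ?_, fun i j => ?_⟩
        · obtain ⟨l, hl | hl⟩ := hy i
          · exact hl ▸ hx.1 l
          · exact hl ▸ hπA (hx.1 l)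
        · obtain ⟨l, hl⟩ := hy i
          obtain ⟨l', hl'⟩ := hy j
          have e1 := hπ _ (hx.1 l)
          have e2 := hπ _ (hx.1 l')
          have e3 := hx.2 l l'
          have e4 := dist_triangle (x l) (x l') (π (x l'))
          have e5 := dist_triangle (π (x l)) (x l) (x l')
          have e6 := (hsm _ x hx).2 l l'
          rw [dist_comm (x l')] at e4
          rcases hl with hl | hl <;> rcases hl' with hl' | hl' <;> rw [hl, hl']
          · change dist (x l) (x l') < ε; linarith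
          · change dist (x l) (π (x l')) < ε; linarith
          · change dist (π (x l)) (x l') < ε; linarith
          · exact e6
      rw [h5, add_zero, Function.id_comp] at h4
      rw [h3, h4]
      ring
    cases n with
    | zero =>
      rw [mem_Bc_zero]
      refine ⟨fun N => (hfC N).sub hgE, ε / 3, by positivity, key.mono fun N hN x hx => ?_⟩
      change f N x - g x = 0
      rw [hN x hx]
      have : AS.prism id π (f N) = 0 := rfl
      rw [this, P265.AS.d_zero]
      simp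
    | succ n =>
      rw [mem_Bc_succ]
      refine ⟨fun N => AS.rs k A (n + 1) (-AS.prism id π (f N)), fun N => rs_eqv hi
        (eqv_prism_of hπA hπa (hsub N)).neg, fun N => ?_, ε / 3, by positivity,
        key.mono fun N hN x hx => ?_⟩
      · exact ((hfC N).sub hgE).sub (rs_eqv hi (eqv_prism_of hπA hπa (hsub N)).neg).d
      · change f N x - g x - AS.d (AS.rs k A (n + 1) (-AS.prism id π (f N))) x = 0
        have h1 : AS.d (AS.rs k A (n + 1) (-AS.prism id π (f N))) x =
            AS.d (-AS.prism id π (f N)) x := P265.AS.d_congr fun y hy =>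
          P265.AS.rs_of_mem (P265.AS.sub_mem hx.1 hy)
        rw [h1, hN x hx, P265.AS.d_neg, Pi.neg_apply]
        ring

/-- **Comparison** for pairs. -/
theorem cst_bijective_rel [Finite k] {a : I → E → E} {χ : I → k} {X A B : Set E} (hA : A ⊆ X)
    (hB : B ⊆ A) (hiA : Inv a A) (hiB : Inv a B) (hNA : Net a A) (hNB : Net a B) (n : ℕ) :
    Function.Bijective (Hmap (isMor_cst_Zr (k := k) a χ X A B) n) :=
  five_left (Zr_anti Subset.rfl hB) Zr_le_Cc (ZrI_anti Subset.rfl hB) ZrI_le_CcI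
    (isMor_cst_Cc a χ X A) (isMor_cst_Cc a χ X B) (isMor_cst_Zr a χ X A B)
    (fun m => cst_bijective hA hiA hNA m) (fun m => cst_bijective (hB.trans hA) hiB hNB m) n

end Metric

end Vale.Agent.P216.H828
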