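import Vale.Agent.P216.AS.Cx
import Vale.Agent.P216.AS.GMap

set_option linter.unusedSectionVars false

/-!
# Mixed complexes and their `S¹`-equivariant cohomology

`C` a complex, `B : C (n + 1) → C n` with `d B + B d = 0`, `B B = 0`.  The total complex is
`C[u]` with differential `d + u B`, `|u| = 2`: in degree `n` it consists of the families `c q`,
`q ≤ n`, `q ≡ n` mod `2` (`c q` is the coefficient of `u ^ ((n - q) / 2)`).
-/

namespace Vale.Agent.P216.H828

open AS

variable {k : Type} [Field k]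

/-- A mixed structure on a complex. -/
structure Mix (C : Amb k) where
  B : ∀ n, C.K (n + 1) →ₗ[k] C.K n
  B_d_zero : ∀ x : C.K 0, B 0 (C.d 0 x) = 0
  B_d : ∀ n (x : C.K (n + 1)), C.d n (B n x) + B (n + 1) (C.d (n + 1) x) = 0
  B_B : ∀ n (x : C.K (n + 2)), B n (B (n + 1) x) = 0

namespace Mix

variable {C : Amb k} (M : Mix C)

/-- The differential `d + u B`. -/
def D : (∀ q, C.K q) →ₗ[k] (∀ q, C.K q) where
  toFun c q := match q with
    | 0 => M.B 0 (c 1)
    | q + 1 => C.d q (c q) + M.B (q + 1) (c (q + 2))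
  map_add' c c' := by
    funext q
    cases q with
    | zero => simp
    | succ q => simp only [Pi.add_apply, map_add]; abel
  map_smul' a c := by
    funext q
    cases q with
    | zero => simp
    | succ q => simp only [Pi.smul_apply, map_smul, RingHom.id_apply, smul_add]

theorem D_zero (c : ∀ q, C.K q) : M.D c 0 = M.B 0 (c 1) := rfl

theorem D_succ (c : ∀ q, C.K q) (q : ℕ) :
    M.D c (q + 1) = C.d q (c q) + M.B (q + 1) (c (q + 2)) := rfl

theorem D_D (c : ∀ q, C.K q) : M.D (M.D c) = 0 := by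
  funext q
  match q with
  | 0 =>
    rw [D_zero, D_succ, map_add, M.B_d_zero, M.B_B, add_zero]
    rfl
  | 1 =>
    rw [D_succ, D_succ, D_zero, map_add, M.B_B, add_zero]
    exact M.B_d 0 _
  | q + 2 =>
    rw [D_succ, D_succ, D_succ, map_add, map_add, C.d_d, zero_add, M.B_B, add_zero]
    exact M.B_d (q + 1) _

/-- The total complex. -/
abbrev U : Amb k where
  K _ := ∀ q, C.K q
  d _ := M.D
  d_d _ x := M.D_D x

theorem U_d (n : ℕ) (c : ∀ q, C.K q) : M.U.d n c = M.D c := rfl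

/-- stability of a subcomplex -/
def Stable (S : Sub C) : Prop := ∀ n x, x ∈ S.S (n + 1) → M.B n x ∈ S.S n

/-- `S[u]` -/
def US (S : Sub C) (hS : M.Stable S) : Sub M.U where
  S n :=
    { carrier := {c : ∀ q, C.K q | (∀ q, q ≤ n → q % 2 = n % 2 → c q ∈ S.S q) ∧
        ∀ q, (n < q ∨ q % 2 ≠ n % 2) → c q = 0}
      zero_mem' := ⟨fun q _ _ => (S.S q).zero_mem, fun _ _ => rfl⟩
      add_mem' := by
        rintro c c' ⟨h1, h2⟩ ⟨h1', h2'⟩
        refine ⟨fun q hq hq' => (S.S q).add_mem (h1 q hq hq') (h1' q hq hq'), fun q hq => ?_⟩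
        change c q + c' q = 0
        rw [h2 q hq, h2' q hq, add_zero]
      smul_mem' := by
        rintro a c ⟨h1, h2⟩
        refine ⟨fun q hq hq' => (S.S q).smul_mem a (h1 q hq hq'), fun q hq => ?_⟩
        change a • c q = 0
        rw [h2 q hq, smul_zero] }
  d_mem := by
    rintro n c ⟨h1, h2⟩
    have hB : ∀ q, q + 1 ≤ n + 2 → M.B q (c (q + 1)) ∈ S.S q := by
      intro q hq
      rcases Nat.lt_or_ge n (q + 1) with h | h
      · rw [h2 (q + 1) (Or.inl h), map_zero]; exact (S.S _).zero_mem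
      · by_cases h' : (q + 1) % 2 = n % 2
        · exact hS _ _ (h1 _ h h')
        · rw [h2 (q + 1) (Or.inr h'), map_zero]; exact (S.S _).zero_mem
    refine ⟨fun q hq hq' => ?_, fun q hq => ?_⟩
    · cases q with
      | zero => exact hB 0 (by omega)
      | succ q =>
        change C.d q (c q) + M.B (q + 1) (c (q + 2)) ∈ _
        exact (S.S _).add_mem (S.d_mem (h1 q (by omega) (by omega))) (hB _ (by omega))
    · cases q with
      | zero =>
        change M.B 0 (c 1) = 0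
        rw [h2 1 (by omega), map_zero]
      | succ q =>
        change C.d q (c q) + M.B (q + 1) (c (q + 2)) = 0
        rw [h2 q (by omega), h2 (q + 2) (by omega), map_zero, map_zero, add_zero]

theorem mem_US {S : Sub C} {hS : M.Stable S} {n : ℕ} {c : ∀ q, C.K q} :
    c ∈ (M.US S hS).S n ↔ (∀ q, q ≤ n → q % 2 = n % 2 → c q ∈ S.S q) ∧
        ∀ q, (n < q ∨ q % 2 ≠ n % 2) → c q = 0 := Iff.rfl

theorem US_apply_mem {S : Sub C} {hS : M.Stable S} {n : ℕ} {c : ∀ q, C.K q}
    (h : c ∈ (M.US S hS).S n) (q : ℕ) : c q ∈ S.S q := by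
  by_cases h' : n < q ∨ q % 2 ≠ n % 2
  · rw [h.2 q h']; exact (S.S q).zero_mem
  · push Not at h'
    exact h.1 q h'.1 h'.2

theorem US_mono {S T : Sub C} {hS : M.Stable S} {hT : M.Stable T} (h : T ≤ S) :
    M.US T hT ≤ M.US S hS := fun _ _ hc => ⟨fun q hq hq' => h q (hc.1 q hq hq'), hc.2⟩

theorem US_two {S : Sub C} {hS : M.Stable S} {n : ℕ} {c : ∀ q, C.K q}
    (h : c ∈ (M.US S hS).S n) : c ∈ (M.US S hS).S (n + 2) :=
  ⟨fun q _ _ => M.US_apply_mem h q, fun q hq => h.2 q (by omega)⟩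

/-- the family concentrated in one place -/
def sg (n : ℕ) : C.K n →ₗ[k] (∀ q, C.K q) := LinearMap.single k C.K n

theorem sg_same (n : ℕ) (x : C.K n) : sg n x n = x := by simp [sg]

theorem sg_of_ne {n q : ℕ} (h : q ≠ n) (x : C.K n) : sg n x q = 0 := by
  simp [sg, Pi.single_eq_of_ne h]

theorem sg_mem {S : Sub C} {hS : M.Stable S} {n q : ℕ} (hq : q ≤ n) (hq' : q % 2 = n % 2)
    {x : C.K q} (hx : x ∈ S.S q) : sg q x ∈ (M.US S hS).S n := by
  refine ⟨fun j _ _ => ?_, fun j hj => ?_⟩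
  · by_cases h : j = q
    · subst h; rw [sg_same]; exact hx
    · rw [sg_of_ne h]; exact (S.S j).zero_mem
  · exact sg_of_ne (by rintro rfl; omega) _

theorem D_sg_zero (x : C.K 0) : M.D (sg 0 x) = sg 1 (C.d 0 x) := by
  funext q
  match q with
  | 0 => rw [D_zero, sg_of_ne (by omega), map_zero, sg_of_ne (by omega)]
  | 1 => rw [D_succ, sg_same, sg_same, sg_of_ne (by omega), map_zero, add_zero]
  | q + 2 =>
    rw [D_succ, sg_of_ne (by omega), sg_of_ne (by omega), sg_of_ne (by omega), map_zero, map_zero,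
      add_zero]

theorem D_sg (n : ℕ) (x : C.K (n + 1)) :
    M.D (sg (n + 1) x) = sg (n + 2) (C.d (n + 1) x) + sg n (M.B n x) := by
  funext q
  change _ = sg (n + 2) (C.d (n + 1) x) q + sg n (M.B n x) q
  match q with
  | 0 =>
    rw [D_zero, sg_of_ne (by omega : (0 : ℕ) ≠ n + 2)]
    refine Eq.trans ?_ (zero_add _).symm
    by_cases h : n = 0
    · subst h; exact (congrArg (M.B 0) (sg_same 1 x)).trans (sg_same 0 _).symm
    · rw [sg_of_ne (by omega : (0 : ℕ) ≠ n), sg_of_ne (by omega : (1 : ℕ) ≠ n + 1), map_zero]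
  | q + 1 =>
    rw [D_succ]
    by_cases h : q = n + 1
    · subst h
      rw [sg_same, sg_same, sg_of_ne (by omega), sg_of_ne (by omega), map_zero]
    · rw [sg_of_ne h, map_zero, zero_add, sg_of_ne (by omega : q + 1 ≠ n + 2), zero_add]
      by_cases h' : n = q + 1
      · subst h'
        exact (congrArg (M.B (q + 1)) (sg_same (q + 2) x)).trans (sg_same (q + 1) _).symm
      · rw [sg_of_ne (by omega : q + 1 ≠ n), sg_of_ne (by omega : q + 2 ≠ n + 1), map_zero]

theorem zc_S {S T : Sub C} {hS : M.Stable S} {hT : M.Stable T} {n : ℕ} {c : ∀ q, C.K q}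
    (hc : (c : M.U.K n) ∈ Zc (M.US S hS) (M.US T hT) n) : c ∈ (M.US S hS).S n := hc.1

theorem zc_D {S T : Sub C} {hS : M.Stable S} {hT : M.Stable T} {n : ℕ} {c : ∀ q, C.K q}
    (hc : (c : M.U.K n) ∈ Zc (M.US S hS) (M.US T hT) n) : M.D c ∈ (M.US T hT).S (n + 1) := hc.2

end Mix

/-- An invariant pair of subcomplexes. -/
structure MPair {C : Amb k} (M : Mix C) where
  S : Sub C
  T : Sub C
  hS : M.Stable S
  hT : M.Stable T
  le : T ≤ S

namespace MPair

open Mix

variable {C : Amb k} {M : Mix C} (P : MPair M)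

/-- cohomology -/
abbrev HH (n : ℕ) : Type := H P.S P.T n

/-- `S¹`-equivariant cohomology -/
abbrev FF (n : ℕ) : Type := H (M.US P.S P.hS) (M.US P.T P.hT) n

theorem us_le : M.US P.T P.hT ≤ M.US P.S P.hS := M.US_mono P.le

/-- multiplication by `u` -/
def u (n : ℕ) : P.FF n →ₗ[k] P.FF (n + 2) :=
  H.gmap (C := M.U) (C' := M.U) (n := n) (m := n + 2) (LinearMap.id : (∀ q, C.K q) →ₗ[k] _)
    (fun _ hx => ⟨M.US_two (M.zc_S hx), M.US_two (M.zc_D hx)⟩)
    (fun x hx hB => by
      change x ∈ _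
      cases n with
      | zero =>
        rw [mem_Bc_zero] at hB
        exact T_le_Bc _ _ _ (M.US_two hB)
      | succ n =>
        rw [mem_Bc_succ] at hB
        obtain ⟨y, hy, h⟩ := hB
        exact mem_Bc_succ.2 ⟨y, M.US_two hy, M.US_two h⟩)

theorem u_mk {n : ℕ} {c : ∀ q, C.K q} (hc : c ∈ Zc (M.US P.S P.hS) (M.US P.T P.hT) n)
    (hc' : c ∈ Zc (M.US P.S P.hS) (M.US P.T P.hT) (n + 2)) :
    P.u n (H.mk (C := M.U) c hc) = H.mk (C := M.U) (n := n + 2) c hc' := rfl

/-- The projection onto the coefficient of `u ^ 0`. -/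
def π (n : ℕ) : P.FF n →ₗ[k] P.HH n :=
  H.gmap (C := M.U) (C' := C) (n := n) (m := n) (LinearMap.proj n)
    (fun c hc => by
      refine ⟨M.US_apply_mem hc.1 n, ?_⟩
      have h1 : M.D c (n + 1) ∈ P.T.S (n + 1) := M.US_apply_mem (M.zc_D hc) (n + 1)
      rw [D_succ, hc.1.2 (n + 2) (Or.inl (by omega)), map_zero, add_zero] at h1
      exact h1)
    (fun c hc hB => by
      change c n ∈ _
      cases n with
      | zero =>
        rw [mem_Bc_zero] at hB ⊢
        exact M.US_apply_mem hB 0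
      | succ n =>
        rw [mem_Bc_succ] at hB ⊢
        obtain ⟨y, hy, h⟩ := hB
        refine ⟨y n, M.US_apply_mem hy n, ?_⟩
        have h1 : (c - M.D y) (n + 1) ∈ P.T.S (n + 1) := M.US_apply_mem h (n + 1)
        rw [Pi.sub_apply, D_succ, hy.2 (n + 2) (Or.inl (by omega)), map_zero, add_zero] at h1
        exact h1)

theorem π_mk {n : ℕ} {c : ∀ q, C.K q} (hc : c ∈ Zc (M.US P.S P.hS) (M.US P.T P.hT) n)
    (h : c n ∈ Zc P.S P.T n) : P.π n (H.mk (C := M.U) c hc) = H.mk (c n) h := rfl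

theorem c_mem_Zc {n : ℕ} {c : ∀ q, C.K q} (hc : c ∈ Zc (M.US P.S P.hS) (M.US P.T P.hT) n) :
    c n ∈ Zc P.S P.T n := by
  refine ⟨M.US_apply_mem hc.1 n, ?_⟩
  have h1 : M.D c (n + 1) ∈ P.T.S (n + 1) := M.US_apply_mem (M.zc_D hc) (n + 1)
  rw [D_succ, hc.1.2 (n + 2) (Or.inl (by omega)), map_zero, add_zero] at h1
  exact h1

theorem B_mem_Zc {n : ℕ} {x : C.K (n + 1)} (hx : x ∈ Zc P.S P.T (n + 1)) :
    sg n (M.B n x) ∈ Zc (M.US P.S P.hS) (M.US P.T P.hT) n := by
  refine ⟨M.sg_mem le_rfl rfl (P.hS _ _ hx.1), ?_⟩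
  change M.D (sg n (M.B n x)) ∈ (M.US P.T P.hT).S (n + 1)
  have hd : C.d n (M.B n x) ∈ P.T.S (n + 1) := by
    rw [eq_neg_of_add_eq_zero_left (M.B_d n x)]
    exact (P.T.S _).neg_mem (P.hT _ _ hx.2)
  cases n with
  | zero => rw [D_sg_zero]; exact M.sg_mem le_rfl rfl hd
  | succ n =>
    rw [D_sg, M.B_B]
    rw [map_zero, add_zero]
    exact M.sg_mem le_rfl rfl hd

/-- The connecting homomorphism `H (n + 1) → F n` of the Gysin sequence. -/
def δ (n : ℕ) : P.HH (n + 1) →ₗ[k] P.FF n :=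
  H.gmap (C := C) (C' := M.U) (n := n + 1) (m := n) (sg n ∘ₗ M.B n)
    (fun _ hx => P.B_mem_Zc hx)
    (fun x hx hB => by
      change sg n (M.B n x) ∈ _
      rw [mem_Bc_succ] at hB
      obtain ⟨y, hy, h⟩ := hB
      have h1 : sg n (M.B n (x - C.d n y)) ∈ (M.US P.T P.hT).S n :=
        M.sg_mem le_rfl rfl (P.hT _ _ h)
      have h2 : sg n (M.B n x) = sg n (M.B n (x - C.d n y)) + sg n (M.B n (C.d n y)) := by
        rw [← map_add, ← map_add, sub_add_cancel]
      rw [h2]
      refine Submodule.add_mem _ (T_le_Bc _ _ _ h1) ?_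
      cases n with
      | zero =>
        rw [M.B_d_zero, map_zero]
        exact Submodule.zero_mem _
      | succ n =>
        rw [mem_Bc_succ]
        refine ⟨-sg n (M.B n y), Submodule.neg_mem _ (M.sg_mem le_rfl rfl (P.hS _ _ hy)), ?_⟩
        have h3 : M.D (sg n (M.B n y)) = -sg (n + 1) (M.B (n + 1) (C.d (n + 1) y)) := by
          have h4 := eq_neg_of_add_eq_zero_left (M.B_d n y)
          cases n with
          | zero => rw [D_sg_zero, h4, map_neg]
          | succ n => rw [D_sg, M.B_B, map_zero, add_zero, h4, map_neg]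
        change sg (n + 1) (M.B (n + 1) (C.d (n + 1) y)) - M.D (-sg n (M.B n y)) ∈ _
        rw [map_neg, h3, neg_neg, sub_self]
        exact Submodule.zero_mem _)

theorem δ_mk {n : ℕ} {x : C.K (n + 1)} (hx : x ∈ Zc P.S P.T (n + 1)) :
    P.δ n (H.mk x hx) = H.mk (C := M.U) (sg n (M.B n x)) (P.B_mem_Zc hx) := rfl

/-- Gysin: exactness of `F n → F (n + 2) → H (n + 2)`. -/
theorem exact_u_π (n : ℕ) : Function.Exact (P.u n) (P.π (n + 2)) := by
  refine H.gmap_exact (fun c hc => ?_) fun c hc hB => ?_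
  · change c (n + 2) ∈ _
    rw [hc.1.2 (n + 2) (Or.inl (by omega))]
    exact Submodule.zero_mem _
  · change c (n + 2) ∈ _ at hB
    rw [mem_Bc_succ] at hB
    obtain ⟨y, hy, h⟩ := hB
    set t := c (n + 2) - C.d (n + 1) y with ht
    have hDs : M.D (sg (n + 1) y) = sg (n + 2) (C.d (n + 1) y) + sg n (M.B n y) := M.D_sg n y
    set b : ∀ q, C.K q := c - M.D (sg (n + 1) y) - sg (n + 2) t with hb
    have hbS : b ∈ (M.US P.S P.hS).S (n + 2) := by
      refine Submodule.sub_mem _ (Submodule.sub_mem _ hc.1 ?_) ?_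
      · exact (M.US P.S P.hS).d_mem (n := n + 1) (M.sg_mem le_rfl rfl hy)
      · exact M.sg_mem le_rfl rfl (P.le _ h)
    have hb0 : b (n + 2) = 0 := by
      rw [hb, hDs]
      change c (n + 2) - (sg (n + 2) (C.d (n + 1) y) (n + 2) + sg n (M.B n y) (n + 2)) -
        sg (n + 2) t (n + 2) = 0
      rw [sg_same, sg_same, sg_of_ne (by omega), add_zero, ht, sub_self]
    have hbS' : b ∈ (M.US P.S P.hS).S n :=
      ⟨fun q _ _ => M.US_apply_mem hbS q, fun q hq => by
        by_cases h' : q = n + 2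
        · subst h'; exact hb0
        · exact hbS.2 q (by omega)⟩
    have hDb : M.D b ∈ (M.US P.T P.hT).S (n + 3) := by
      rw [hb, map_sub, map_sub, D_D, sub_zero]
      exact Submodule.sub_mem _ hc.2 ((M.US P.T P.hT).d_mem (n := n + 2)
        (M.sg_mem le_rfl rfl h))
    have hDb' : M.D b ∈ (M.US P.T P.hT).S (n + 1) :=
      ⟨fun q _ _ => M.US_apply_mem hDb q, ((M.US P.S P.hS).d_mem (n := n) hbS').2⟩
    refine ⟨b, ⟨hbS', hDb'⟩, ?_⟩
    change c - b ∈ _
    rw [mem_Bc_succ]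
    refine ⟨sg (n + 1) y, M.sg_mem le_rfl rfl hy, ?_⟩
    change c - b - M.D (sg (n + 1) y) ∈ _
    have : c - b - M.D (sg (n + 1) y) = sg (n + 2) t := by rw [hb]; abel
    rw [this]
    exact M.sg_mem le_rfl rfl h

/-- Gysin: exactness of `F (n + 1) → H (n + 1) → F n`. -/
theorem exact_π_δ (n : ℕ) : Function.Exact (P.π (n + 1)) (P.δ n) := by
  refine H.gmap_exact (fun c hc => ?_) fun x hx hB => ?_
  · change sg n (M.B n (c (n + 1))) ∈ _
    -- `c' = c - sg (c (n+1))` has degree `n - 1`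
    set c' : ∀ q, C.K q := c - sg (n + 1) (c (n + 1)) with hc'
    have h1 : M.D c = sg (n + 2) (C.d (n + 1) (c (n + 1))) + sg n (M.B n (c (n + 1))) +
        M.D c' := by
      rw [hc', map_sub, D_sg]; abel
    have hcn := P.c_mem_Zc hc
    have hT : sg n (M.B n (c (n + 1))) + M.D c' ∈ (M.US P.T P.hT).S n := by
      have h2 : sg n (M.B n (c (n + 1))) + M.D c' =
          M.D c - sg (n + 2) (C.d (n + 1) (c (n + 1))) := by rw [h1]; abel
      rw [h2]
      have h3 : M.D c - sg (n + 2) (C.d (n + 1) (c (n + 1))) ∈ (M.US P.T P.hT).S (n + 2) :=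
        Submodule.sub_mem _ hc.2 (M.sg_mem le_rfl rfl hcn.2)
      refine ⟨fun q _ _ => M.US_apply_mem h3 q, fun q hq => ?_⟩
      by_cases h' : q = n + 2
      · subst h'
        rw [Pi.sub_apply, sg_same, D_succ, hc.1.2 (n + 1 + 2) (Or.inl (by omega)), map_zero,
          add_zero, sub_self]
      · exact h3.2 q (by omega)
    have hc'0 : ∀ q, (n < q ∨ q % 2 = n % 2) → c' q = 0 := by
      intro q hq
      by_cases h' : q = n + 1
      · subst h'
        rw [hc', Pi.sub_apply, sg_same, sub_self]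
      · rw [hc', Pi.sub_apply, sg_of_ne h', sub_zero]
        exact hc.1.2 q (by omega)
    cases n with
    | zero =>
      have h4 : c' = 0 := by
        funext q
        by_cases hq : q = 0
        · exact hc'0 q (by omega)
        · exact hc'0 q (by omega)
      rw [h4, map_zero, add_zero] at hT
      rw [mem_Bc_zero]
      exact hT
    | succ n =>
      rw [mem_Bc_succ]
      refine ⟨-c', Submodule.neg_mem _ ⟨fun q _ _ => ?_, fun q hq => hc'0 q (by omega)⟩, ?_⟩
      · by_cases h' : q = n + 2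
        · rw [hc'0 q (by omega)]; exact (P.S.S q).zero_mem
        · rw [hc', Pi.sub_apply, sg_of_ne (by omega), sub_zero]
          exact M.US_apply_mem hc.1 q
      · change sg (n + 1) (M.B (n + 1) (c (n + 1 + 1))) - M.D (-c') ∈ _
        rw [map_neg, sub_neg_eq_add]
        exact hT
  · change sg n (M.B n x) ∈ _ at hB
    obtain ⟨y, hy, hyT⟩ : ∃ y : ∀ q, C.K q, ((∀ q, y q ∈ P.S.S q) ∧
        ∀ q, (n ≤ q ∨ q % 2 = n % 2) → y q = 0) ∧
        sg n (M.B n x) - M.D y ∈ (M.US P.T P.hT).S n := by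
      cases n with
      | zero =>
        rw [mem_Bc_zero] at hB
        exact ⟨0, ⟨fun q => (P.S.S q).zero_mem, fun q _ => rfl⟩, by rw [map_zero, sub_zero]; exact hB⟩
      | succ n =>
        rw [mem_Bc_succ] at hB
        obtain ⟨y, hy, h⟩ := hB
        exact ⟨y, ⟨fun q => M.US_apply_mem hy q, fun q hq => hy.2 q (by omega)⟩, h⟩
    have hcS : sg (n + 1) x - y ∈ (M.US P.S P.hS).S (n + 1) := by
      refine Submodule.sub_mem _ (M.sg_mem le_rfl rfl hx.1) ⟨fun q _ _ => hy.1 q, fun q hq => ?_⟩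
      exact hy.2 q (by omega)
    have hDc : M.D (sg (n + 1) x - y) ∈ (M.US P.T P.hT).S (n + 2) := by
      have : M.D (sg (n + 1) x - y) =
          sg (n + 2) (C.d (n + 1) x) + (sg n (M.B n x) - M.D y) := by
        rw [map_sub, D_sg]; abel
      rw [this]
      exact Submodule.add_mem _ (M.sg_mem le_rfl rfl hx.2) (M.US_two hyT)
    refine ⟨sg (n + 1) x - y, ⟨hcS, hDc⟩, ?_⟩
    change x - (sg (n + 1) x - y) (n + 1) ∈ _
    rw [Pi.sub_apply, sg_same, hy.2 (n + 1) (Or.inl (by omega)), sub_zero, sub_self]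
    exact Submodule.zero_mem _

/-- Gysin: exactness of `H (n + 1) → F n → F (n + 2)`. -/
theorem exact_δ_u (n : ℕ) : Function.Exact (P.δ n) (P.u n) := by
  refine H.gmap_exact (fun x hx => ?_) fun b hb hB => ?_
  · change sg n (M.B n x) ∈ Bc (M.US P.S P.hS) (M.US P.T P.hT) (n + 2)
    rw [mem_Bc_succ]
    refine ⟨sg (n + 1) x, M.sg_mem le_rfl rfl hx.1, ?_⟩
    change sg n (M.B n x) - M.D (sg (n + 1) x) ∈ _
    rw [D_sg]
    have : sg n (M.B n x) - (sg (n + 2) (C.d (n + 1) x) + sg n (M.B n x)) =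
      -sg (n + 2) (C.d (n + 1) x) := by abel
    rw [this]
    exact Submodule.neg_mem _ (M.sg_mem le_rfl rfl hx.2)
  · change b ∈ Bc (M.US P.S P.hS) (M.US P.T P.hT) (n + 2) at hB
    rw [mem_Bc_succ] at hB
    obtain ⟨y, hy, h⟩ := hB
    change b - M.D y ∈ _ at h
    have hx1 : C.d (n + 1) (y (n + 1)) ∈ P.T.S (n + 2) := by
      have h1 := M.US_apply_mem h (n + 2)
      rw [Pi.sub_apply, hb.1.2 (n + 2) (Or.inl (by omega)), D_succ,
        hy.2 (n + 1 + 2) (Or.inl (by omega)), map_zero, add_zero, zero_sub] at h1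
      exact (Submodule.neg_mem_iff _).1 h1
    have hx : y (n + 1) ∈ Zc P.S P.T (n + 1) := ⟨M.US_apply_mem hy _, hx1⟩
    refine ⟨y (n + 1), hx, ?_⟩
    change b - sg n (M.B n (y (n + 1))) ∈ Bc (M.US P.S P.hS) (M.US P.T P.hT) n
    set y' : ∀ q, C.K q := y - sg (n + 1) (y (n + 1)) with hy'
    have hy'0 : ∀ q, (n < q ∨ q % 2 = n % 2) → y' q = 0 := by
      intro q hq
      by_cases h' : q = n + 1
      · subst h'
        rw [hy', Pi.sub_apply, sg_same, sub_self]
      · rw [hy', Pi.sub_apply, sg_of_ne h', sub_zero]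
        exact hy.2 q (by omega)
    have hT : b - sg n (M.B n (y (n + 1))) - M.D y' ∈ (M.US P.T P.hT).S n := by
      have h2 : b - sg n (M.B n (y (n + 1))) - M.D y' =
          b - M.D y + sg (n + 2) (C.d (n + 1) (y (n + 1))) := by
        rw [hy', map_sub, D_sg]; abel
      rw [h2]
      have h3 : b - M.D y + sg (n + 2) (C.d (n + 1) (y (n + 1))) ∈ (M.US P.T P.hT).S (n + 2) :=
        Submodule.add_mem _ h (M.sg_mem le_rfl rfl hx1)
      refine ⟨fun q _ _ => M.US_apply_mem h3 q, fun q hq => ?_⟩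
      by_cases h' : q = n + 2
      · subst h'
        change b (n + 2) - M.D y (n + 2) + sg (n + 2) (C.d (n + 1) (y (n + 1))) (n + 2) = 0
        rw [sg_same, D_succ, hy.2 (n + 1 + 2) (Or.inl (by omega)), map_zero, add_zero,
          hb.1.2 (n + 2) (Or.inl (by omega)), zero_sub, neg_add_cancel]
      · exact h3.2 q (by omega)
    cases n with
    | zero =>
      have h4 : y' = 0 := by
        funext q
        exact hy'0 q (by omega)
      rw [h4, map_zero, sub_zero] at hT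
      rw [mem_Bc_zero]
      exact hT
    | succ n =>
      rw [mem_Bc_succ]
      refine ⟨y', ⟨fun q _ _ => ?_, fun q hq => hy'0 q (by omega)⟩, hT⟩
      by_cases h' : q = n + 2
      · rw [hy'0 q (by omega)]; exact (P.S.S q).zero_mem
      · rw [hy', Pi.sub_apply, sg_of_ne (by omega), sub_zero]
        exact M.US_apply_mem hy q

/-- In low degrees `F → H` is injective. -/
theorem π_injective {n : ℕ} (hn : n < 2) : Function.Injective (P.π n) := by
  refine H.gmap_injective fun c hc hB => ?_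
  change c n ∈ _ at hB
  have h0 : ∀ q, q ≠ n → c q = 0 := fun q hq => hc.1.2 q (by omega)
  have hcs : c = sg n (c n) := by
    funext q
    by_cases h : q = n
    · subst h; rw [sg_same]
    · rw [h0 q h, sg_of_ne h]
  obtain rfl | rfl : n = 0 ∨ n = 1 := by omega
  · rw [mem_Bc_zero] at hB ⊢
    rw [hcs]
    exact M.sg_mem le_rfl rfl hB
  · rw [mem_Bc_succ] at hB ⊢
    obtain ⟨y, hy, h⟩ := hB
    refine ⟨sg 0 y, M.sg_mem le_rfl rfl hy, ?_⟩
    change c - M.D (sg 0 y) ∈ (M.US P.T P.hT).S 1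
    have h5 : c - M.D (sg 0 y) = sg 1 (c 1 - C.d 0 y) := by
      rw [D_sg_zero, map_sub, ← hcs]
    rw [h5]
    exact M.sg_mem le_rfl rfl h

theorem π_zero_surjective : Function.Surjective (P.π 0) := by
  refine H.gmap_surjective fun x hx => ?_
  refine ⟨sg 0 x, ⟨M.sg_mem le_rfl rfl hx.1, ?_⟩, ?_⟩
  · change M.D (sg 0 x) ∈ (M.US P.T P.hT).S 1
    rw [D_sg_zero]
    exact M.sg_mem le_rfl rfl hx.2
  · change x - sg 0 x 0 ∈ _
    rw [sg_same, sub_self]
    exact Submodule.zero_mem _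

/-- `Δ : H (n + 1) → H n` induced by `B`. -/
def Δ (n : ℕ) : P.HH (n + 1) →ₗ[k] P.HH n := P.π n ∘ₗ P.δ n

theorem Δ_mk {n : ℕ} {x : C.K (n + 1)} (hx : x ∈ Zc P.S P.T (n + 1))
    (h : M.B n x ∈ Zc P.S P.T n) : P.Δ n (H.mk x hx) = H.mk (M.B n x) h := by
  change P.π n (P.δ n (H.mk x hx)) = _
  rw [δ_mk]
  have h1 : sg n (M.B n x) n = M.B n x := sg_same _ _
  have h2 := P.π_mk (P.B_mem_Zc hx) (by rw [h1]; exact h)
  rw [h2]
  congr 1

end MPair

end Vale.Agent.P216.H828
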