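import Vale.Agent.P216.H828.Mixed
import Vale.Agent.P216.AS.TotMap

set_option linter.unusedSectionVars false

/-!
# `S¹`-equivariant cohomology is a natural direct summand of the `Z/p`-equivariant cohomology

`Rotn G`: on a complex with `Z/p`-action `G` an operator `Q` with `d Q + Q d = 1 - g`, `Q Q = 0`,
and `A` with `(1 - g) A = - nm` (`p = 0` in `k`).  Then `B = nm Q` is a mixed structure and
`Φ : C[u] → Tot`, `r : Tot → C[u]` are strict chain maps with `r Φ = 1`, commuting with `u`.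
-/

namespace Vale.Agent.P216.H828

open AS

variable {k : Type} [Field k] {C : Amb k}

/-- The data of a rotation homotopy. -/
structure Rotn (G : GCx C) where
  Q : ∀ n, C.K (n + 1) →ₗ[k] C.K n
  A : ∀ n, C.K n →ₗ[k] C.K n
  Q_d_zero : ∀ x : C.K 0, Q 0 (C.d 0 x) = x - G.g 0 x
  Q_d : ∀ n (x : C.K (n + 1)), C.d n (Q n x) + Q (n + 1) (C.d (n + 1) x) = x - G.g (n + 1) x
  Q_Q : ∀ n (x : C.K (n + 2)), Q n (Q (n + 1) x) = 0
  Q_nm : ∀ n (x : C.K (n + 1)), Q n (G.nm (n + 1) x) = G.nm n (Q n x)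
  d_A : ∀ n x, C.d n (A n x) = A (n + 1) (C.d n x)
  Q_A : ∀ n (x : C.K (n + 1)), Q n (A (n + 1) x) = A n (Q n x)
  A_sub : ∀ n x, A n (x - G.g n x) = -G.nm n x
  sub_A : ∀ n x, A n x - G.g n (A n x) = -G.nm n x

namespace Rotn

variable {G : GCx C} (X : Rotn G)

theorem nm_sub (n : ℕ) (x : C.K n) : G.nm n (x - G.g n x) = 0 := by
  rw [map_sub, G.nm_g, sub_self]

/-- the mixed structure -/
def mix : Mix C where
  B n := G.nm n ∘ₗ X.Q n
  B_d_zero x := by
    rw [LinearMap.comp_apply, X.Q_d_zero, nm_sub]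
  B_d n x := by
    rw [LinearMap.comp_apply, LinearMap.comp_apply, G.d_nm, ← map_add, X.Q_d, nm_sub]
  B_B n x := by
    rw [LinearMap.comp_apply, LinearMap.comp_apply, X.Q_nm, X.Q_Q, map_zero, map_zero]

theorem mix_B (n : ℕ) (x : C.K (n + 1)) : X.mix.B n x = G.nm n (X.Q n x) := rfl

theorem Q_B (n : ℕ) (x : C.K (n + 2)) : X.Q n (X.mix.B (n + 1) x) = 0 := by
  rw [mix_B, X.Q_nm, X.Q_Q, map_zero]

theorem B_Q (n : ℕ) (x : C.K (n + 2)) : X.mix.B n (X.Q (n + 1) x) = 0 := by
  rw [mix_B, X.Q_Q, map_zero]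

/-- stability -/
structure Stable (S : Sub C) : Prop extends G.Stable S where
  Q_mem : ∀ n x, x ∈ S.S (n + 1) → X.Q n x ∈ S.S n
  A_mem : ∀ n x, x ∈ S.S n → X.A n x ∈ S.S n

variable {X} in
theorem Stable.mix {S : Sub C} (h : X.Stable S) : X.mix.Stable S := fun n x hx =>
  h.nm_mem n _ (h.Q_mem n x hx)

/-- `C[u] → Tot` -/
def Φ (n : ℕ) : (∀ q, C.K q) →ₗ[k] (∀ q, C.K q) where
  toFun c q := if (n + q) % 2 = 0 then c q else (-1 : k) ^ q • X.Q q (c (q + 1))
  map_add' c c' := by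
    funext q
    by_cases h : (n + q) % 2 = 0 <;> simp [h]
  map_smul' a c := by
    funext q
    by_cases h : (n + q) % 2 = 0
    · simp [h]
    · simp only [h, if_false, Pi.smul_apply, map_smul, RingHom.id_apply]
      rw [smul_comm]

theorem Φ_even {n q : ℕ} (h : (n + q) % 2 = 0) (c : ∀ q, C.K q) : X.Φ n c q = c q := if_pos h

theorem Φ_odd {n q : ℕ} (h : (n + q) % 2 = 1) (c : ∀ q, C.K q) :
    X.Φ n c q = (-1 : k) ^ q • X.Q q (c (q + 1)) := if_neg (by omega)

theorem Φ_add_two (n : ℕ) : X.Φ (n + 2) = X.Φ n := by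
  ext c q
  rcases Nat.mod_two_eq_zero_or_one (n + q) with h | h
  · rw [X.Φ_even h, X.Φ_even (by omega)]
  · rw [X.Φ_odd h, X.Φ_odd (by omega)]

/-- `Tot → C[u]` -/
def r (n : ℕ) : (∀ q, C.K q) →ₗ[k] (∀ q, C.K q) where
  toFun b q := if (n + q) % 2 = 0 then b q + (-1 : k) ^ q • X.Q q (X.A (q + 1) (b (q + 1))) else 0
  map_add' c c' := by
    funext q
    by_cases h : (n + q) % 2 = 0
    · simp only [h, if_true, Pi.add_apply, map_add, smul_add]; abel
    · simp [h]
  map_smul' a c := by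
    funext q
    by_cases h : (n + q) % 2 = 0
    · simp only [h, if_true, Pi.smul_apply, map_smul, RingHom.id_apply, smul_add]
      rw [smul_comm]
    · simp [h]

theorem r_even {n q : ℕ} (h : (n + q) % 2 = 0) (c : ∀ q, C.K q) :
    X.r n c q = c q + (-1 : k) ^ q • X.Q q (X.A (q + 1) (c (q + 1))) := if_pos h

theorem r_odd {n q : ℕ} (h : (n + q) % 2 = 1) (c : ∀ q, C.K q) : X.r n c q = 0 :=
  if_neg (by omega)

theorem sgn_sgn (q : ℕ) (V : Type) [AddCommGroup V] [Module k V] (x : V) :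
    (-1 : k) ^ q • (-1 : k) ^ q • x = x := by
  rw [smul_smul, ← pow_add, Even.neg_one_pow ⟨q, rfl⟩, one_smul]

theorem D_Φ (n : ℕ) (c : ∀ q, C.K q) : G.D n (X.Φ n c) = X.Φ (n + 1) (X.mix.D c) := by
  funext q
  rcases Nat.mod_two_eq_zero_or_one (n + q) with h | h
  · -- `q ≡ n`
    rw [X.Φ_odd (n := n + 1) (by omega), Mix.D_succ, map_add, X.Q_B, add_zero]
    cases q with
    | zero =>
      rw [GCx.D_zero, X.Φ_even (by omega), G.θ_odd (by omega), X.Q_d_zero, pow_zero, one_smul]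
    | succ q =>
      rw [GCx.D_succ, X.Φ_even (n := n) (q := q + 1) (by omega),
        X.Φ_odd (n := n) (q := q) (by omega), G.θ_odd (by omega), map_smul, ← X.Q_d, smul_add,
        pow_succ]
      simp only [mul_neg, mul_one, neg_smul]
      abel
  · -- `q ≡ n + 1`
    rw [X.Φ_even (n := n + 1) (by omega)]
    cases q with
    | zero =>
      rw [GCx.D_zero, X.Φ_odd (by omega), G.θ_even (by omega), Mix.D_zero, mix_B, pow_zero,
        one_smul]
    | succ q =>
      rw [GCx.D_succ, X.Φ_odd (n := n) (q := q + 1) (by omega),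
        X.Φ_even (n := n) (q := q) (by omega), G.θ_even (by omega), map_smul, Mix.D_succ, mix_B,
        sgn_sgn]

theorem D_r (n : ℕ) (b : ∀ q, C.K q) : X.mix.D (X.r n b) = X.r (n + 1) (G.D n b) := by
  funext q
  rcases Nat.mod_two_eq_zero_or_one (n + q) with h | h
  · rw [X.r_odd (n := n + 1) (by omega)]
    cases q with
    | zero => rw [Mix.D_zero, X.r_odd (by omega), map_zero]
    | succ q =>
      rw [Mix.D_succ, X.r_odd (n := n) (q := q) (by omega),
        X.r_odd (n := n) (q := q + 2) (by omega), map_zero, map_zero, add_zero]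
  · rw [X.r_even (n := n + 1) (by omega)]
    have hB : ∀ q, X.mix.B q (X.Q (q + 1) (X.A (q + 2) (b (q + 2)))) = 0 := fun q => X.B_Q q _
    cases q with
    | zero =>
      rw [Mix.D_zero, X.r_even (n := n) (q := 1) (by omega), map_add, map_smul, hB, smul_zero,
        add_zero, GCx.D_zero, G.θ_even (by omega), GCx.D_succ, G.θ_odd (by omega), map_add,
        map_add, map_smul, map_smul, X.A_sub, map_neg, X.Q_nm, mix_B, ← X.d_A, X.Q_d_zero,
        X.sub_A, pow_zero, one_smul]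
      simp
    | succ q =>
      rw [Mix.D_succ, X.r_even (n := n) (q := q) (by omega),
        X.r_even (n := n) (q := q + 2) (by omega), map_add, map_add, map_smul, map_smul, hB,
        smul_zero, add_zero, GCx.D_succ, GCx.D_succ, G.θ_even (by omega), G.θ_odd (by omega),
        map_add, map_add, map_smul, map_smul, X.A_sub, map_neg, X.Q_nm, mix_B, ← X.d_A]
      have h1 := X.Q_d q (X.A (q + 1) (b (q + 1)))
      rw [X.sub_A] at h1
      have h2 : X.Q (q + 1) (C.d (q + 1) (X.A (q + 1) (b (q + 1)))) =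
          -G.nm (q + 1) (b (q + 1)) - C.d q (X.Q q (X.A (q + 1) (b (q + 1)))) := by
        rw [← h1]; abel
      have e1 : (-1 : k) ^ (q + 1) = -(-1) ^ q := by rw [pow_succ]; ring
      have e2 : (-1 : k) ^ (q + 1 + 1) = (-1) ^ q := by rw [pow_succ, pow_succ]; ring
      rw [h2, smul_add, smul_sub, smul_neg, e2, e1]
      simp only [neg_smul, neg_neg, smul_neg, sgn_sgn]
      abel

theorem r_Φ {n q : ℕ} (h : (n + q) % 2 = 0) (c : ∀ q, C.K q) : X.r n (X.Φ n c) q = c q := by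
  rw [X.r_even h, X.Φ_even h, X.Φ_odd (q := q + 1) (by omega), map_smul, map_smul, ← X.Q_A,
    X.Q_Q, smul_zero, smul_zero, add_zero]

variable {S T : Sub C}

theorem Φ_mem (hS : X.Stable S) {n : ℕ} {c : ∀ q, C.K q}
    (hc : c ∈ (X.mix.US S hS.mix).S n) : X.Φ n c ∈ (G.TotS S hS.toStable).S n := by
  refine ⟨fun q hq => ?_, fun q hq => ?_⟩
  · rcases Nat.mod_two_eq_zero_or_one (n + q) with h | h
    · rw [X.Φ_even h]; exact X.mix.US_apply_mem hc q
    · rw [X.Φ_odd h]; exact (S.S q).smul_mem _ (hS.Q_mem _ _ (X.mix.US_apply_mem hc _))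
  · rcases Nat.mod_two_eq_zero_or_one (n + q) with h | h
    · rw [X.Φ_even h]; exact hc.2 q (Or.inl hq)
    · rw [X.Φ_odd h, hc.2 (q + 1) (Or.inl (by omega)), map_zero, smul_zero]

theorem r_mem (hS : X.Stable S) {n : ℕ} {b : ∀ q, C.K q}
    (hb : b ∈ (G.TotS S hS.toStable).S n) : X.r n b ∈ (X.mix.US S hS.mix).S n := by
  have hb' : ∀ q, b q ∈ S.S q := fun q => by
    rcases Nat.lt_or_ge n q with h | h
    · rw [hb.2 q h]; exact (S.S q).zero_mem
    · exact hb.1 q h
  refine ⟨fun q _ _ => ?_, fun q hq => ?_⟩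
  · rcases Nat.mod_two_eq_zero_or_one (n + q) with h | h
    · rw [X.r_even h]
      exact (S.S q).add_mem (hb' q) ((S.S q).smul_mem _ (hS.Q_mem _ _ (hS.A_mem _ _ (hb' _))))
    · rw [X.r_odd h]; exact (S.S q).zero_mem
  · rcases Nat.mod_two_eq_zero_or_one (n + q) with h | h
    · rw [X.r_even h, hb.2 q (by omega), hb.2 (q + 1) (by omega), map_zero, map_zero, smul_zero,
        add_zero]
    · exact X.r_odd h _

theorem isMor_Φ (hS : X.Stable S) (hT : X.Stable T) :
    IsMor (C := X.mix.U) (C' := G.Tot) (X.mix.US S hS.mix) (X.mix.US T hT.mix)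
      (G.TotS S hS.toStable) (G.TotS T hT.toStable) (fun n => X.Φ n) :=
  IsMor.of_comm (fun h => X.Φ_mem hS h) (fun h => X.Φ_mem hT h) fun n c => X.D_Φ n c

theorem isMor_r (hS : X.Stable S) (hT : X.Stable T) :
    IsMor (C := G.Tot) (C' := X.mix.U) (G.TotS S hS.toStable) (G.TotS T hT.toStable)
      (X.mix.US S hS.mix) (X.mix.US T hT.mix) (fun n => X.r n) :=
  IsMor.of_comm (fun h => X.r_mem hS h) (fun h => X.r_mem hT h) fun n c => X.D_r n c

/-- The pair in the mixed sense. -/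
def mp (hS : X.Stable S) (hT : X.Stable T) (h : T ≤ S) : MPair X.mix :=
  ⟨S, T, hS.mix, hT.mix, h⟩

/-- The pair in the `Z/p` sense. -/
def gp (hS : X.Stable S) (hT : X.Stable T) (h : T ≤ S) : G.Pair :=
  ⟨S, T, hS.toStable, hT.toStable, h⟩

/-- **The embedding of the `S¹`-theory into the `Z/p`-theory.** -/
theorem Φ_injective (hS : X.Stable S) (hT : X.Stable T) (n : ℕ) :
    Function.Injective (Hmap (X.isMor_Φ hS hT) n) := by
  have h : ∀ x, Hmap (X.isMor_r hS hT) n (Hmap (X.isMor_Φ hS hT) n x) = x := by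
    intro x
    obtain ⟨c, hc, rfl⟩ := H.exists_mk x
    rw [Hmap_mk, Hmap_mk]
    congr 1
    funext q
    rcases Nat.mod_two_eq_zero_or_one (n + q) with h | h
    · exact X.r_Φ h c
    · change X.r n (X.Φ n c) q = c q
      rw [X.r_odd h]
      exact (hc.1.2 q (Or.inr (by omega))).symm
  exact Function.LeftInverse.injective h

end Rotn

end Vale.Agent.P216.H828
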